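import Vale.Agent.P297.H251.Line
import Vale.Agent.P297.H279.Jet
import Vale.Agent.P297.H288.KAlg

/-!
The centres of a chord.
-/

set_option linter.unusedSectionVars false
set_option linter.style.haveILetI false

open Polynomial

namespace Vale.Agent.P297.H251

open Vale.Agent.P297 Vale.Agent.P297.Gen Vale.Agent.P297.H288 Vale.Agent.P297.H279

section ring

variable {N : Type} [Field N] [Algebra ℂ N] (P : Par) {δ v0 v1 v2 q r0 r1 r2 c D t : N}

theorem fA_lit : fA P ![δ, v0, v1, v2] ![q, r0, r1, r2] t =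
    -(q ^ 3 * ((t - r1) ^ 2 * (t - r2) ^ 2)) - e2 P δ t * (t - r2) +
      (1 + q) ^ 3 * ((t - r0) ^ 3 * (t - r1)) -
      3 * (t + 1) * (q * (1 + q) * ((t - r0) * (t - r1) * (t - r2))) := rfl

theorem fB_lit : fB P ![δ, v0, v1, v2] ![q, r0, r1, r2] t =
    -(v0 * (q ^ 3 * ((t - r1) ^ 2 * (t - r2) ^ 2))) - v1 * (e2 P δ t * (t - r2)) +
      v2 * ((1 + q) ^ 3 * ((t - r0) ^ 3 * (t - r1))) +
      (3 * t + mu P δ) * (q * (1 + q) * ((t - r0) * (t - r1) * (t - r2))) := rfl

theorem fB_FT (he0 : ∀ X, e0 P δ X = (X - v0) * (X - v1) * (X - v2)) (hr1 : D + c * q * r1 = v1)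
    (hr2 : D + c * q * r2 = v2) :
    c ^ 5 * (fB P ![δ, v0, v1, v2] ![q, r0, r1, r2] t -
      (D + c * q * t) * fA P ![δ, v0, v1, v2] ![q, r0, r1, r2] t) =
    q * (t - r1) * (t - r2) *
      FT P δ (-(c ^ 2 * (1 + q)) * (t - r0)) t (D + c * q * t) (c ^ 3) := by
  rw [fA_lit, fB_lit]
  unfold FT hh
  rw [he0, ← hr1, ← hr2]
  ring

/-- Along the chord, `B = d A`. -/
theorem fB_eq (hc0 : c ≠ 0) (he0 : ∀ X, e0 P δ X = (X - v0) * (X - v1) * (X - v2))
    (hr1 : D + c * q * r1 = v1) (hr2 : D + c * q * r2 = v2)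
    (h : FT P δ (-(c ^ 2 * (1 + q)) * (t - r0)) t (D + c * q * t) (c ^ 3) = 0) :
    fB P ![δ, v0, v1, v2] ![q, r0, r1, r2] t =
      (D + c * q * t) * fA P ![δ, v0, v1, v2] ![q, r0, r1, r2] t := by
  have h1 := fB_FT P (t := t) (r0 := r0) he0 hr1 hr2
  rw [h, mul_zero] at h1
  exact sub_eq_zero.1 ((mul_eq_zero.1 h1).resolve_left (pow_ne_zero _ hc0))

/-- The coefficient of degree two of a chord. -/
theorem chord_r0 [CharZero N] (hc0 : c ≠ 0)
    (h : ∀ t, FT P δ (-(c ^ 2 * (1 + q)) * (t - r0)) t (D + c * q * t) (c ^ 3) = 0) :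
    (1 + q + q ^ 2) * (D + c * (1 + q) * r0) + (1 + q) * (1 + c * q) = 0 := by
  obtain ⟨-, -, f2, -⟩ := cub_zero (N := N)
    (f0 := (c ^ 2 * (1 + q) * r0) ^ 3 - c ^ 6 * m1 P δ + c ^ 3 * (D ^ 3 - m4 P δ * D - m2 P δ) -
      (c ^ 2 * (1 + q) * r0) * c ^ 3 * (3 * D + mu P δ))
    (f1 := -(3 * (c ^ 2 * (1 + q)) * (c ^ 2 * (1 + q) * r0) ^ 2) - c ^ 6 * m3 P δ +
      c ^ 3 * (3 * D ^ 2 * (c * q) - m4 P δ * (c * q)) -
      (c ^ 2 * (1 + q) * r0) * c ^ 3 * (3 * D + 3 * (1 + c * q)) +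
      c ^ 2 * (1 + q) * c ^ 3 * (3 * D + mu P δ))
    (f2 := 3 * c ^ 5 * ((1 + q + q ^ 2) * (D + c * (1 + q) * r0) + (1 + q) * (1 + c * q)))
    (f3 := 0) (by
      intro t
      have h1 := h t
      unfold FT e2 e0 hh at h1
      linear_combination h1)
  have h30 : (3 : N) ≠ 0 := by norm_num
  exact (mul_eq_zero.1 f2).resolve_left (mul_ne_zero h30 (pow_ne_zero _ hc0))

/-- The sum of the roots of the cubic. -/
theorem sum_v (he0 : ∀ X : N, e0 P δ X = (X - v0) * (X - v1) * (X - v2)) [CharZero N] :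
    v0 + v1 + v2 = 0 := by
  have a0 := he0 0
  have a1 := he0 1
  have a2 := he0 (-1)
  unfold e0 at a0 a1 a2
  linear_combination (1 / 2) * (a1 + a2) - a0

/-- The leading coefficient of the denominator of a chord. -/
theorem lead_eq [CharZero N] (hc0 : c ≠ 0)
    (he0 : ∀ X, e0 P δ X = (X - v0) * (X - v1) * (X - v2)) (hr1 : D + c * q * r1 = v1)
    (hr2 : D + c * q * r2 = v2)
    (h : ∀ t, FT P δ (-(c ^ 2 * (1 + q)) * (t - r0)) t (D + c * q * t) (c ^ 3) = 0) :
    c * q * (pA P ![δ, v0, v1, v2] ![q, r0, r1, r2]).coeff 3 =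
      (v2 - v1) + (3 * v2 + 3) * q + (3 * v2 + 3) * q ^ 2 + (v2 - v0) * q ^ 3 := by
  have h1 := chord_r0 P hc0 h
  have h2 := sum_v P he0
  have h3 : (pA P ![δ, v0, v1, v2] ![q, r0, r1, r2]).coeff 3 =
      2 * q ^ 3 * (r1 + r2) + r2 - (1 + q) ^ 3 * (3 * r0 + r1) -
      3 * (q * (1 + q)) * (1 - (r0 + r1 + r2)) := by
    rw [pA_eq]
    simp only [coeff_add, coeff_C_mul, coeff_X_pow, coeff_X, coeff_C]
    norm_num
    rfl
  rw [h3, ← hr1, ← hr2]
  rw [← hr1, ← hr2] at h2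
  linear_combination (-3 * q) * h1 + q ^ 3 * h2

end ring

section fields

variable {N : Type} [Field N] [Algebra ℂ N]

/-- The factorisation of a cubic polynomial. -/
theorem exists_three [IsAlgClosed N] {p : N[X]} (hp : p.natDegree ≤ 3) (h3 : p.coeff 3 ≠ 0) :
    ∃ β : Fin 3 → N, p = C (p.coeff 3) * ∏ k, (X - C (β k)) := by
  have hdeg : p.natDegree = 3 := le_antisymm hp (le_natDegree_of_ne_zero h3)
  have hs := IsAlgClosed.splits p
  have hcard : p.roots.card = 3 := by rw [← hdeg, hs.natDegree_eq_card_roots]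
  obtain ⟨a, b, d, habd⟩ := Multiset.card_eq_three.1 hcard
  refine ⟨![a, b, d], ?_⟩
  have h1 := hs.eq_prod_roots
  rw [habd] at h1
  have hl : p.leadingCoeff = p.coeff 3 := by rw [leadingCoeff, hdeg]
  rw [hl] at h1
  rw [Fin.prod_univ_three]
  refine h1.trans ?_
  simp [mul_assoc]

variable (P : Par) {δ v0 v1 v2 q r0 r1 r2 c D β : N}

/-- The roots of the cubic are algebraic. -/
theorem root_mem [IsAlgClosed N] {v : N} (h : e0 P δ v = 0) : v ∈ cl0 ({δ} : Set N) := by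
  set F := cl0 ({δ} : Set N) with hFdef
  have hF : ∀ u, IsAlgebraic F u → u ∈ F := cl0_closed ({δ} : Set N)
  have hδF : δ ∈ F := subset_cl0 _ rfl
  apply hF
  refine ⟨X ^ 3 - C ⟨m4 P δ, m4_mem P F hδF⟩ * X - C ⟨m2 P δ, m2_mem P F hδF⟩, ?_, ?_⟩
  · intro h0
    have h' := congrArg (fun q => q.coeff 3) h0
    simp only [coeff_sub, coeff_C_mul, coeff_X_pow, coeff_X, coeff_C, coeff_zero] at h'
    norm_num at h'
  · simp only [map_sub, map_mul, map_pow, aeval_X, aeval_C]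
    exact h

theorem v_ne_neg {v : N} (hδ : Transcendental ℂ δ) (h : e0 P δ v = 0) : v ≠ -1 := by
  rintro rfl
  unfold e0 m4 m2 at h
  apply hδ
  refine ⟨C 2 * X ^ 3 + C (3 + P.z 3) * X ^ 2 + C (P.z 3 - P.z 1 + P.t 3) * X +
    C (-1 + P.t 3 - P.t 1), ?_, ?_⟩
  · intro h0
    have h' := congrArg (fun q => q.coeff 3) h0
    simp only [coeff_add, coeff_C_mul, coeff_X_pow, coeff_X, coeff_C, coeff_zero] at h'
    norm_num at h'
  · simp only [map_add, map_sub, map_mul, map_pow, map_neg, aeval_X, aeval_C, map_ofNat, map_one]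
    linear_combination h

/-- The centres in the degenerate positions are covered too: there are always residues. -/
theorem exists_res (hc0 : c ≠ 0) (hq0 : q ≠ 0) (hq1 : 1 + q ≠ 0)
    (he0 : ∀ X, e0 P δ X = (X - v0) * (X - v1) * (X - v2)) (hr1 : D + c * q * r1 = v1)
    (hr2 : D + c * q * r2 = v2) (h01 : v0 ≠ v1) (h12 : v1 ≠ v2)
    (h : FT P δ (-(c ^ 2 * (1 + q)) * (β - r0)) β (D + c * q * β) (c ^ 3) = 0)
    (hA : fA P ![δ, v0, v1, v2] ![q, r0, r1, r2] β = 0) :
    (β = r1 → e2 P δ β = 0) ∧ (β = r2 → e2 P δ β = 0) ∧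
    (β = r0 → β = r1 ∨ β = r2) ∧
    ∃ n0 n1 n2 : N, n0 + n1 + n2 = 3 * (β + 1) ∧ v0 * n0 + v1 * n1 + v2 * n2 = -(3 * β + mu P δ) ∧
      n0 * n1 * n2 = e2 P δ β ∧
      n0 * (-(c ^ 2 * (1 + q)) * (β - r0)) =
        ((D + c * q * β) - v1) * ((D + c * q * β) - v2) ∧
      (-(c ^ 2 * (1 + q)) * (β - r0)) ^ 2 = n2 * c ^ 3 * ((D + c * q * β) - v2) := by
  have hB := fB_eq P hc0 he0 hr1 hr2 h
  rw [hA, mul_zero] at hB
  have hr12 : r1 ≠ r2 := by
    rintro rfl
    exact h12 (hr1.symm.trans hr2)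
  have d01 : v0 - v1 ≠ 0 := sub_ne_zero.2 h01
  have d12 : v1 - v2 ≠ 0 := sub_ne_zero.2 h12
  by_cases hb1 : β = r1
  · subst hb1
    have hE : e2 P δ β = 0 := by
      rw [fA_lit] at hA
      have h1 : e2 P δ β * (β - r2) = 0 := by linear_combination -hA
      exact (mul_eq_zero.1 h1).resolve_right (sub_ne_zero.2 hr12)
    refine ⟨fun _ => hE, fun _ => hE, fun _ => Or.inl rfl, ?_⟩
    have h0 : e0 P δ (D + c * q * β) = 0 := by rw [he0, hr1]; ring
    unfold FT at h
    rw [hE, h0, hr1] at h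
    set a : N := -(c ^ 2 * (1 + q)) * (β - r0) with ha
    have h2 : a * (a ^ 2 - c ^ 3 * hh P δ β v1) = 0 := by linear_combination h
    rw [hr1]
    by_cases ha0 : a = 0
    · rw [ha0]
      refine ⟨-(hh P δ β v1) / (v0 - v1), 3 * (β + 1) + hh P δ β v1 / (v0 - v1), 0, ?_, ?_, ?_,
        ?_, ?_⟩
      · ring
      · unfold hh
        field_simp
        ring
      · rw [hE]; ring
      · ring
      · ring
    · have h3 : a ^ 2 = c ^ 3 * hh P δ β v1 := by
        have := (mul_eq_zero.1 h2).resolve_left ha0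
        linear_combination this
      refine ⟨0, 3 * (β + 1) - hh P δ β v1 / (v1 - v2), hh P δ β v1 / (v1 - v2), ?_, ?_, ?_,
        ?_, ?_⟩
      · ring
      · unfold hh
        field_simp
        ring
      · rw [hE]; ring
      · ring
      · rw [h3]
        field_simp
  have hb1' : β - r1 ≠ 0 := sub_ne_zero.2 hb1
  by_cases hb2 : β = r2
  · subst hb2
    have hr0 : β = r0 := by
      rw [fA_lit] at hA
      have h1 : (1 + q) ^ 3 * ((β - r0) ^ 3 * (β - r1)) = 0 := by linear_combination hA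
      have h2 := (mul_eq_zero.1 ((mul_eq_zero.1 h1).resolve_left (pow_ne_zero _ hq1))).resolve_right
        hb1'
      exact sub_eq_zero.1 (pow_eq_zero_iff (by norm_num) |>.1 h2)
    subst hr0
    have h0 : e0 P δ (D + c * q * β) = 0 := by rw [he0, hr2]; ring
    have hE : e2 P δ β = 0 := by
      unfold FT at h
      rw [h0] at h
      have h3 : (c ^ 3) ^ 2 * e2 P δ β = 0 := by linear_combination h
      exact (mul_eq_zero.1 h3).resolve_left (pow_ne_zero _ (pow_ne_zero _ hc0))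
    refine ⟨fun _ => hE, fun _ => hE, fun _ => Or.inr rfl, ?_⟩
    rw [hr2]
    refine ⟨0, 3 * (β + 1) - hh P δ β v1 / (v1 - v2), hh P δ β v1 / (v1 - v2), ?_, ?_, ?_,
      ?_, ?_⟩
    · ring
    · unfold hh
      field_simp
      ring
    · rw [hE]; ring
    · ring
    · ring
  have hb2' : β - r2 ≠ 0 := sub_ne_zero.2 hb2
  have hb0 : β ≠ r0 := by
    rintro rfl
    rw [fA_lit] at hA
    unfold FT at h
    rw [he0, ← hr1, ← hr2] at h
    have h1 : e2 P δ β + q ^ 3 * ((β - r1) ^ 2 * (β - r2)) = 0 := by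
      have : (β - r2) * (e2 P δ β + q ^ 3 * ((β - r1) ^ 2 * (β - r2))) = 0 := by
        linear_combination -hA
      exact (mul_eq_zero.1 this).resolve_left hb2'
    have h2 : c ^ 5 * q ^ 2 * ((β - r1) * (β - r2)) * (v1 - v0) = 0 := by
      linear_combination h - c ^ 6 * h1 - (c ^ 5 * q ^ 2 * ((β - r1) * (β - r2))) * hr1
    have h3 := (mul_eq_zero.1 h2).resolve_left (mul_ne_zero (mul_ne_zero (pow_ne_zero _ hc0)
      (pow_ne_zero _ hq0)) (mul_ne_zero hb1' hb2'))
    exact h01 (sub_eq_zero.1 h3).symm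
  have hb0' : β - r0 ≠ 0 := sub_ne_zero.2 hb0
  refine ⟨fun h => absurd h hb1, fun h => absurd h hb2, fun h => absurd h hb0, ?_⟩
  rw [fA_lit] at hA
  rw [fB_lit] at hB
  refine ⟨-(q ^ 2 * ((β - r1) * (β - r2))) / ((1 + q) * (β - r0)),
    -(e2 P δ β) / (q * (1 + q) * ((β - r0) * (β - r1))),
    (1 + q) ^ 2 * (β - r0) ^ 2 / (q * (β - r2)), ?_, ?_, ?_, ?_, ?_⟩
  · field_simp
    linear_combination hA
  · field_simp
    linear_combination hB
  · field_simp
  · rw [← hr1, ← hr2]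
    field_simp
    ring
  · rw [← hr2]
    field_simp
    ring

/-- **The centres of a chord are generic.** -/
theorem centre_gen [IsAlgClosed N] (hδ : Transcendental ℂ δ) (hc : c ∉ cl0 ({δ} : Set N))
    (hq : q ∉ cl0 ({δ} : Set N))
    (he0 : ∀ X, e0 P δ X = (X - v0) * (X - v1) * (X - v2)) (hr1 : D + c * q * r1 = v1)
    (hr2 : D + c * q * r2 = v2) (h01 : v0 ≠ v1) (h02 : v0 ≠ v2) (h12 : v1 ≠ v2)
    (h : ∀ t, FT P δ (-(c ^ 2 * (1 + q)) * (t - r0)) t (D + c * q * t) (c ^ 3) = 0)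
    (hA : fA P ![δ, v0, v1, v2] ![q, r0, r1, r2] β = 0) :
    β ∉ cl0 ({δ} : Set N) ∧ β ≠ r0 ∧ β ≠ r1 ∧ β ≠ r2 ∧ e2 P δ β ≠ 0 := by
  haveI : CharZero N := charZero_of_injective_algebraMap (algebraMap ℂ N).injective
  set F := cl0 ({δ} : Set N) with hFdef
  have hF : ∀ u, IsAlgebraic F u → u ∈ F := cl0_closed ({δ} : Set N)
  have hδF : δ ∈ F := subset_cl0 _ rfl
  have hc0 : c ≠ 0 := by
    rintro rfl
    exact hc F.zero_mem
  have hq0 : q ≠ 0 := by
    rintro rfl
    exact hq F.zero_mem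
  have hq1 : 1 + q ≠ 0 := by
    intro h0
    apply hq
    have : q = -1 := by linear_combination h0
    rw [this]
    exact neg_mem F.one_mem
  have hv0 : v0 ∈ F := root_mem P (by rw [he0]; ring)
  have hv1 : v1 ∈ F := root_mem P (by rw [he0]; ring)
  have hv2 : v2 ∈ F := root_mem P (by rw [he0]; ring)
  have hw1 : v1 ≠ -1 := v_ne_neg P hδ (by rw [he0]; ring)
  have hw2 : v2 ≠ -1 := v_ne_neg P hδ (by rw [he0]; ring)
  obtain ⟨k1, k2, k3, n0, n1, n2, g1, g2, g3, g4, g5⟩ :=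
    exists_res P hc0 hq0 hq1 he0 hr1 hr2 h01 h12 (h β) hA
  have hβ : β ∉ F := by
    refine H521.centre_notMem F hF (m1_mem P F hδF) (m3_mem P F hδF) (mu_mem P F hδF) hv0 hv1 hv2
      h01 h02 h12 (m2 := m2 P δ) (m4 := m4 P δ) he0 hw1 hw2 hc
      (a := -(c ^ 2 * (1 + q)) * (β - r0)) (d := D + c * q * β) (ρ := 1) (α := c * q)
      (Or.inl one_ne_zero) ?_ g1 g2 g3 g4 g5
    intro y
    have h1 := h (β + y)
    unfold FT e2 e0 hh at h1
    linear_combination h1
  have hE : e2 P δ β ≠ 0 := by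
    intro h0
    apply hβ
    apply hF
    refine ⟨X ^ 3 - C ⟨m3 P δ, m3_mem P F hδF⟩ * X - C ⟨m1 P δ, m1_mem P F hδF⟩, ?_, ?_⟩
    · intro h0
      have h' := congrArg (fun q => q.coeff 3) h0
      simp only [coeff_sub, coeff_C_mul, coeff_X_pow, coeff_X, coeff_C, coeff_zero] at h'
      norm_num at h'
    · simp only [map_sub, map_mul, map_pow, aeval_X, aeval_C]
      exact h0
  refine ⟨hβ, fun h0 => ?_, fun h0 => hE (k1 h0), fun h0 => hE (k2 h0), hE⟩
  rcases k3 h0 with h1 | h1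
  · exact hE (k1 h1)
  · exact hE (k2 h1)

/-- The three products are not all equal. -/
theorem node_core [IsAlgClosed N] (hδ : Transcendental ℂ δ)
    (he0 : ∀ X, e0 P δ X = (X - v0) * (X - v1) * (X - v2)) (h01 : v0 ≠ v1) (h02 : v0 ≠ v2)
    (h12 : v1 ≠ v2) {d n0 n1 n2 : N} (hβ : β ∉ cl0 ({δ} : Set N))
    (g1 : n0 + n1 + n2 = 3 * (β + 1)) (g2 : v0 * n0 + v1 * n1 + v2 * n2 = -(3 * β + mu P δ))
    (g3 : n0 * n1 * n2 = e2 P δ β) (h1 : n0 * (d - v0) = n1 * (d - v1))
    (h2 : n0 * (d - v0) = n2 * (d - v2)) : False := by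
  classical
  haveI : CharZero N := charZero_of_injective_algebraMap (algebraMap ℂ N).injective
  have h30 : (3 : N) ≠ 0 := by norm_num
  set F := cl0 ({δ} : Set N) with hFdef
  have hF : ∀ u, IsAlgebraic F u → u ∈ F := cl0_closed ({δ} : Set N)
  have hδF : δ ∈ F := subset_cl0 _ rfl
  have hv0 : v0 ∈ F := root_mem P (by rw [he0]; ring)
  have hv1 : v1 ∈ F := root_mem P (by rw [he0]; ring)
  have hv2 : v2 ∈ F := root_mem P (by rw [he0]; ring)
  obtain ⟨G, hG⟩ : ∃ G, G = n0 * (d - v0) := ⟨_, rfl⟩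
  have b3 : 3 * G = 3 * β * d + 3 * (β + d) + mu P δ := by
    rw [hG]
    linear_combination d * g1 - g2 + h1 + h2
  have sv := sum_v P he0
  have em4 : m4 P δ = -(v0 * v1 + v0 * v2 + v1 * v2) := by
    have a1 := he0 1
    have a2 := he0 (-1)
    unfold e0 at a1 a2
    linear_combination (-1 / 2) * (a1 - a2)
  -- `G e' = 3 (β + 1) e`
  have c1 : G * (3 * d ^ 2 - m4 P δ) = 3 * (β + 1) * e0 P δ d := by
    rw [he0, ← g1, em4, hG]
    linear_combination (d - v0) * (d - v2) * h1 + (d - v0) * (d - v1) * h2 +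
      (2 * d * n0 * (d - v0)) * sv
  have c2 : G ^ 3 = e0 P δ d * e2 P δ β := by
    rw [he0, ← g3, hG]
    linear_combination (n0 * (d - v0)) ^ 2 * h2 + (n0 * (d - v0)) * (n2 * (d - v2)) * h1
  have hμ3 : mu P δ - 3 ≠ 0 := by
    intro h0
    have := trans_ne2 hδ (P.t 2 + P.t 3 - 3) (P.z 2 + P.z 3 + 3) 6 (by norm_num)
    apply this
    simp only [map_add, map_sub, map_ofNat]
    unfold mu m3 m4 at h0
    linear_combination h0
  set S : N := 3 * d ^ 2 + 2 * m4 P δ * d + 3 * m2 P δ - m4 P δ with hS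
  have c3 : 3 * S * (β + 1) = (3 - mu P δ) * (3 * d ^ 2 - m4 P δ) := by
    have : 3 * ((3 * S * (β + 1)) - (3 - mu P δ) * (3 * d ^ 2 - m4 P δ)) = 0 := by
      rw [hS]
      unfold e0 at c1
      linear_combination (-3) * (3 * d ^ 2 - m4 P δ) * b3 + 9 * c1
    have := (mul_eq_zero.1 this).resolve_left h30
    linear_combination this
  have c4 : G * S = (3 - mu P δ) * e0 P δ d := by
    have : 3 * (G * S - (3 - mu P δ) * e0 P δ d) = 0 := by
      unfold e0
      linear_combination S * b3 + (d + 1) * c3 - (3 - mu P δ) * hS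
    have := (mul_eq_zero.1 this).resolve_left h30
    linear_combination this
  have hm1 := m1_mem P F hδF
  have hm2 := m2_mem P F hδF
  have hm3 := m3_mem P F hδF
  have hm4 := m4_mem P F hδF
  have hmu := mu_mem P F hδF
  by_cases hS0 : S = 0
  · rw [hS0, mul_zero, zero_mul] at c3
    rw [hS0, mul_zero] at c4
    have hμ3' : 3 - mu P δ ≠ 0 := fun h0 => hμ3 (by linear_combination -h0)
    have e1 := (mul_eq_zero.1 c3.symm).resolve_left hμ3'
    have e2 := (mul_eq_zero.1 c4.symm).resolve_left hμ3'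
    have e3 : 3 * d ^ 2 - m4 P δ = (d - v1) * (d - v2) + (d - v0) * (d - v2) +
        (d - v0) * (d - v1) := by
      rw [em4]
      linear_combination (2 * d) * sv
    rw [e1] at e3
    rw [he0] at e2
    rcases mul_eq_zero.1 e2 with h | h
    · rcases mul_eq_zero.1 h with h | h
      · have hd : d = v0 := sub_eq_zero.1 h
        subst hd
        have : (d - v1) * (d - v2) = 0 := by linear_combination -e3
        rcases mul_eq_zero.1 this with h | h
        · exact h01 (sub_eq_zero.1 h)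
        · exact h02 (sub_eq_zero.1 h)
      · have hd : d = v1 := sub_eq_zero.1 h
        subst hd
        have : (d - v0) * (d - v2) = 0 := by linear_combination -e3
        rcases mul_eq_zero.1 this with h | h
        · exact h01 (sub_eq_zero.1 h).symm
        · exact h12 (sub_eq_zero.1 h)
    · have hd : d = v2 := sub_eq_zero.1 h
      subst hd
      have : (d - v0) * (d - v1) = 0 := by linear_combination -e3
      rcases mul_eq_zero.1 this with h | h
      · exact h02 (sub_eq_zero.1 h).symm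
      · exact h12 (sub_eq_zero.1 h).symm
  · have hd : d ∉ F := by
      intro hd
      apply hβ
      have e1 : β = (3 - mu P δ) * (3 * d ^ 2 - m4 P δ) / (3 * S) - 1 := by
        rw [← c3]
        field_simp
        ring
      have n3 : (3 : N) ∈ F := ofNat_mem F 3
      have n2 : (2 : N) ∈ F := ofNat_mem F 2
      have hSF : S ∈ F := sub_mem (add_mem (add_mem (mul_mem n3 (pow_mem hd 2))
        (mul_mem (mul_mem n2 hm4) hd)) (mul_mem n3 hm2)) hm4
      rw [e1]
      exact sub_mem (div_mem (mul_mem (sub_mem n3 hmu) (sub_mem (mul_mem n3 (pow_mem hd 2)) hm4))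
        (mul_mem n3 hSF)) F.one_mem
    have he0d : e0 P δ d ≠ 0 := fun h0 => hd (root_mem P h0)
    obtain ⟨B, hB⟩ : ∃ B, B = -(3 * mu P δ) * d ^ 2 - 6 * m4 P δ * d +
      (mu P δ * m4 P δ - 9 * m2 P δ) := ⟨_, rfl⟩
    have hB' : B = 3 * S * β := by
      rw [hB]
      linear_combination -c3 + 3 * hS
    have key : 27 * (3 - mu P δ) ^ 3 * e0 P δ d ^ 2 - B ^ 3 + 9 * m3 P δ * S ^ 2 * B +
        27 * m1 P δ * S ^ 3 = 0 := by
      apply mul_left_cancel₀ he0d
      have e3 : e2 P δ β = β ^ 3 - m3 P δ * β - m1 P δ := rfl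
      rw [hB', mul_zero]
      have c5 : (3 - mu P δ) ^ 3 * e0 P δ d ^ 3 = e0 P δ d * e2 P δ β * S ^ 3 := by
        rw [← mul_pow, ← c4, mul_pow, c2]
      rw [e3] at c5
      linear_combination 27 * c5
    apply hd
    apply hF
    set k : N → F := fun x => if h : x ∈ F then ⟨x, h⟩ else 0 with hk
    have hkv : ∀ x ∈ F, algebraMap F N (k x) = x := by
      intro x hx
      rw [hk]
      simp only [hx]
      rfl
    set E : F[X] := X ^ 3 - C (k (m4 P δ)) * X - C (k (m2 P δ)) with hE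
    set B' : F[X] := -(3 * C (k (mu P δ))) * X ^ 2 - 6 * C (k (m4 P δ)) * X +
      (C (k (mu P δ)) * C (k (m4 P δ)) - 9 * C (k (m2 P δ))) with hB'
    set S' : F[X] := 3 * X ^ 2 + 2 * C (k (m4 P δ)) * X + 3 * C (k (m2 P δ)) - C (k (m4 P δ))
      with hS'
    refine ⟨27 * (3 - C (k (mu P δ))) ^ 3 * E ^ 2 - B' ^ 3 + 9 * C (k (m3 P δ)) * S' ^ 2 * B' +
      27 * C (k (m1 P δ)) * S' ^ 3, ?_, ?_⟩
    · have t1 : HT E 3 1 := by
        have := (((HT.X (F := F)).pow 3).cast (m := 3) rfl).sub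
          (((HT.C (k (m4 P δ))).mul HT.X).up (m := 3) (by norm_num))
        have := this.sub ((HT.C (k (m2 P δ))).up (m := 3) (by norm_num))
        exact this.val (by ring)
      have t2 : HT B' 2 (-(3 * k (mu P δ))) := by
        have := ((((HT.num (F := F) 3).mul (HT.C (k (mu P δ)))).neg.mul
          ((HT.X (F := F)).pow 2)).cast (m := 2) rfl).sub
          ((((HT.num (F := F) 6).mul (HT.C (k (m4 P δ)))).mul HT.X).up (m := 2) (by norm_num))
        have := this.add ((((HT.C (k (mu P δ))).mul (HT.C (k (m4 P δ)))).sub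
          (((HT.num (F := F) 9).mul (HT.C (k (m2 P δ)))).cast (m := 0 + 0) rfl)).up (m := 2)
          (by norm_num))
        exact this.val (by ring)
      have t3 : HT S' 2 3 := by
        have := (((HT.num (F := F) 3).mul ((HT.X (F := F)).pow 2)).cast (m := 2) rfl).add
          ((((HT.num (F := F) 2).mul (HT.C (k (m4 P δ)))).mul HT.X).up (m := 2) (by norm_num))
        have := (this.add (((HT.num (F := F) 3).mul (HT.C (k (m2 P δ)))).up (m := 2)
          (by norm_num))).sub ((HT.C (k (m4 P δ))).up (m := 2) (by norm_num))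
        exact this.val (by ring)
      have t4 : HT (27 * (3 - C (k (mu P δ))) ^ 3 * E ^ 2 - B' ^ 3 +
          9 * C (k (m3 P δ)) * S' ^ 2 * B' + 27 * C (k (m1 P δ)) * S' ^ 3) 6
          (27 * ((3 - k (mu P δ)) ^ 3 + k (mu P δ) ^ 3 - 9 * k (m3 P δ) * k (mu P δ) +
            27 * k (m1 P δ))) := by
        have s1 := (((HT.num (F := F) 27).mul ((((HT.num (F := F) 3).sub
          (HT.C (k (mu P δ)))).pow 3).cast (m := 0) rfl)).mul (t1.pow 2)).cast (m := 6) rfl
        have s2 := (t2.pow 3).cast (m := 6) rfl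
        have s3 := ((((HT.num (F := F) 9).mul (HT.C (k (m3 P δ)))).mul (t3.pow 2)).mul t2).cast
          (m := 6) rfl
        have s4 := (((HT.num (F := F) 27).mul (HT.C (k (m1 P δ)))).mul (t3.pow 3)).cast
          (m := 6) rfl
        exact (((s1.sub s2).add s3).add s4).val (by ring)
      refine t4.ne_zero ?_
      intro h0
      have h1 := congrArg (algebraMap F N) h0
      simp only [map_mul, map_add, map_sub, map_pow, map_zero, map_ofNat, hkv _ hmu, hkv _ hm3,
        hkv _ hm1] at h1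
      have h27 : (27 : N) ≠ 0 := by norm_num
      have h2 := (mul_eq_zero.1 h1).resolve_left h27
      have := trans_ne4 hδ (3 - 3 * (P.t 2 + P.t 3) + (P.t 2 + P.t 3) * P.t 3 + 3 * P.t 0)
        (-3 * (P.z 2 + P.z 3 + 3) + (P.t 2 + P.t 3) * (P.z 3 + 3) + (P.z 2 + P.z 3 + 3) * P.t 3 +
          3 * (P.z 0 - P.t 2))
        (-18 + 3 * (P.t 2 + P.t 3) + (P.z 2 + P.z 3 + 3) * (P.z 3 + 3) + 6 * P.t 3 - 3 * P.z 2)
        (3 * (P.z 2 + P.z 3 + 3) + 6 * (P.z 3 + 3) - 6) 18 (by norm_num)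
      apply this
      simp only [map_add, map_sub, map_mul, map_neg, map_ofNat]
      unfold mu m3 m4 m1 at h2
      have h9 : (9 : N) ≠ 0 := by norm_num
      apply mul_left_cancel₀ h9
      linear_combination h2
    · simp only [map_mul, map_add, map_sub, map_pow, map_neg, map_ofNat, aeval_C, aeval_X,
        hE, hB', hS', hkv _ hmu, hkv _ hm3, hkv _ hm1, hkv _ hm4, hkv _ hm2]
      unfold e0 at key
      rw [hB, hS] at key
      linear_combination key

end fields

end Vale.Agent.P297.H251
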