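import Vale.Agent.P297.H251.Centre

/-!
The determinant of the Moebius transformation at the centres of a chord.
-/

set_option linter.unusedSectionVars false
set_option linter.style.haveILetI false

open Polynomial

namespace Vale.Agent.P297.H251

open Vale.Agent.P297 Vale.Agent.P297.Gen Vale.Agent.P297.H288 Vale.Agent.P297.H279

variable {N : Type} [Field N] [Algebra ℂ N] (P : Par) {δ v0 v1 v2 q r0 r1 r2 c D β : N}

/-- The determinant in a direction `(0, 0, 1, z)`. -/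
theorem det_eq {z : N} (d : N) :
    d * (qA P ![δ, v0, v1, v2] ![q, r0, r1, r2] ![0, 0, 1, z]).eval β -
      (qB P ![δ, v0, v1, v2] ![q, r0, r1, r2] ![0, 0, 1, z]).eval β =
    -(2 * (v0 - d) * (q ^ 3 * ((β - r1) * (β - r2) ^ 2)) -
        (v2 - d) * ((1 + q) ^ 3 * (β - r0) ^ 3) -
        q * (1 + q) * ((β - r0) * (β - r2)) * hh P δ β d) -
      z * (2 * (v0 - d) * (q ^ 3 * ((β - r1) ^ 2 * (β - r2))) + (v1 - d) * e2 P δ β -
        q * (1 + q) * ((β - r0) * (β - r1)) * hh P δ β d) := by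
  have h := q_det (P := P) ![δ, v0, v1, v2] ![q, r0, r1, r2] ![0, 0, 1, z] β d
  simp only [Matrix.cons_val_zero, Matrix.cons_val_one, Matrix.cons_val] at h
  linear_combination -h

/-- At a centre the two partial derivatives do not both vanish. -/
theorem det_part [IsAlgClosed N] (hδ : Transcendental ℂ δ) (hc : c ∉ cl0 ({δ} : Set N))
    (hq : q ∉ cl0 ({δ} : Set N))
    (he0 : ∀ X, e0 P δ X = (X - v0) * (X - v1) * (X - v2)) (hr1 : D + c * q * r1 = v1)
    (hr2 : D + c * q * r2 = v2) (h01 : v0 ≠ v1) (h02 : v0 ≠ v2) (h12 : v1 ≠ v2)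
    (h : ∀ t, FT P δ (-(c ^ 2 * (1 + q)) * (t - r0)) t (D + c * q * t) (c ^ 3) = 0)
    (hA : fA P ![δ, v0, v1, v2] ![q, r0, r1, r2] β = 0) {d : N} (hd : d = D + c * q * β)
    (hX : 2 * (v0 - d) * (q ^ 3 * ((β - r1) * (β - r2) ^ 2)) -
        (v2 - d) * ((1 + q) ^ 3 * (β - r0) ^ 3) -
        q * (1 + q) * ((β - r0) * (β - r2)) * hh P δ β d = 0)
    (hY : 2 * (v0 - d) * (q ^ 3 * ((β - r1) ^ 2 * (β - r2))) + (v1 - d) * e2 P δ β -
        q * (1 + q) * ((β - r0) * (β - r1)) * hh P δ β d = 0) : False := by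
  obtain ⟨hβ, k0, k1, k2, hE⟩ := centre_gen P hδ hc hq he0 hr1 hr2 h01 h02 h12 h hA
  have hc0 : c ≠ 0 := by
    rintro rfl
    exact hc (zero_mem _)
  have hq0 : q ≠ 0 := by
    rintro rfl
    exact hq (zero_mem _)
  have hq1 : 1 + q ≠ 0 := by
    intro h0
    apply hq
    have : q = -1 := by linear_combination h0
    rw [this]
    exact neg_mem (one_mem _)
  have hB := fB_eq P hc0 he0 hr1 hr2 (h β)
  rw [hA, mul_zero] at hB
  rw [fA_lit] at hA
  rw [fB_lit] at hB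
  have b0 : β - r0 ≠ 0 := sub_ne_zero.2 k0
  have b1 : β - r1 ≠ 0 := sub_ne_zero.2 k1
  have b2 : β - r2 ≠ 0 := sub_ne_zero.2 k2
  have hM : q * (1 + q) * ((β - r0) * (β - r1) * (β - r2)) ≠ 0 :=
    mul_ne_zero (mul_ne_zero hq0 hq1) (mul_ne_zero (mul_ne_zero b0 b1) b2)
  have hA' := hA
  have hB' := hB
  obtain ⟨M, hMd⟩ : ∃ M, M = q * (1 + q) * ((β - r0) * (β - r1) * (β - r2)) := ⟨_, rfl⟩
  rw [← hMd] at hA hB hM
  have hh' : hh P δ β d = 3 * β * d + 3 * (β + d) + mu P δ := rfl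
  refine node_core P hδ he0 h01 h02 h12 hβ (d := d)
    (n0 := -(q ^ 3 * ((β - r1) ^ 2 * (β - r2) ^ 2)) / M)
    (n1 := -(e2 P δ β * (β - r2)) / M)
    (n2 := (1 + q) ^ 3 * ((β - r0) ^ 3 * (β - r1)) / M) ?_ ?_ ?_ ?_ ?_
  · field_simp
    linear_combination hA
  · field_simp
    linear_combination hB
  · field_simp
    rw [hMd]
    ring
  · rw [div_mul_eq_mul_div, div_mul_eq_mul_div]
    congr 1
    rw [hh'] at hX
    linear_combination (β - r1) * hX - d * hA' + hB'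
  · rw [div_mul_eq_mul_div, div_mul_eq_mul_div]
    congr 1
    rw [hh'] at hY
    linear_combination (β - r2) * hY - d * hA' + hB'

/-- **A direction which works at all the centres.** -/
theorem exists_dir [IsAlgClosed N] (hδ : Transcendental ℂ δ) (hc : c ∉ cl0 ({δ} : Set N))
    (hq : q ∉ cl0 ({δ} : Set N))
    (he0 : ∀ X, e0 P δ X = (X - v0) * (X - v1) * (X - v2)) (hr1 : D + c * q * r1 = v1)
    (hr2 : D + c * q * r2 = v2) (h01 : v0 ≠ v1) (h02 : v0 ≠ v2) (h12 : v1 ≠ v2)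
    (h : ∀ t, FT P δ (-(c ^ 2 * (1 + q)) * (t - r0)) t (D + c * q * t) (c ^ 3) = 0)
    {m : ℕ} {β : Fin m → N} (hA : ∀ k, fA P ![δ, v0, v1, v2] ![q, r0, r1, r2] (β k) = 0) :
    ∃ z : ℂ, ∀ k, (D + c * q * β k) *
      (qA P ![δ, v0, v1, v2] ![q, r0, r1, r2] ![0, 0, 1, algebraMap ℂ N z]).eval (β k) -
      (qB P ![δ, v0, v1, v2] ![q, r0, r1, r2] ![0, 0, 1, algebraMap ℂ N z]).eval (β k) ≠ 0 := by
  obtain ⟨x, hx⟩ : ∃ x : Fin m → N, ∀ k, x k =
      2 * (v0 - (D + c * q * β k)) * (q ^ 3 * ((β k - r1) * (β k - r2) ^ 2)) -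
        (v2 - (D + c * q * β k)) * ((1 + q) ^ 3 * (β k - r0) ^ 3) -
        q * (1 + q) * ((β k - r0) * (β k - r2)) * hh P δ (β k) (D + c * q * β k) :=
    ⟨_, fun _ => rfl⟩
  obtain ⟨y, hy⟩ : ∃ y : Fin m → N, ∀ k, y k =
      2 * (v0 - (D + c * q * β k)) * (q ^ 3 * ((β k - r1) ^ 2 * (β k - r2))) +
        (v1 - (D + c * q * β k)) * e2 P δ (β k) -
        q * (1 + q) * ((β k - r0) * (β k - r1)) * hh P δ (β k) (D + c * q * β k) :=
    ⟨_, fun _ => rfl⟩
  have hne : ∀ k, ¬ (x k = 0 ∧ y k = 0) := by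
    rintro k ⟨h1, h2⟩
    rw [hx] at h1
    rw [hy] at h2
    exact det_part P hδ hc hq he0 hr1 hr2 h01 h02 h12 h (hA k) rfl h1 h2
  have hpoly : ∏ k, (C (x k) + C (y k) * X) ≠ (0 : N[X]) := by
    refine Finset.prod_ne_zero_iff.2 fun k _ h0 => hne k ⟨?_, ?_⟩
    · have := congrArg (fun p => coeff p 0) h0
      simpa using this
    · have := congrArg (fun p => coeff p 1) h0
      simpa using this
  have hz : ∃ z : ℂ, (∏ k, (C (x k) + C (y k) * X) : N[X]).eval (algebraMap ℂ N z) ≠ 0 := by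
    by_contra hcon
    push Not at hcon
    apply hpoly
    refine eq_zero_of_infinite_isRoot _ ?_
    refine Set.Infinite.mono (s := Set.range (algebraMap ℂ N)) ?_
      (Set.infinite_range_of_injective (algebraMap ℂ N).injective)
    rintro _ ⟨z, rfl⟩
    exact hcon z
  obtain ⟨z, hz⟩ := hz
  refine ⟨z, fun k => ?_⟩
  rw [eval_prod] at hz
  have h1 := (Finset.prod_ne_zero_iff.1 hz) k (Finset.mem_univ k)
  rw [eval_add, eval_mul, eval_C, eval_C, eval_X] at h1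
  rw [det_eq, ← hx, ← hy]
  intro h0
  apply h1
  linear_combination -h0

end Vale.Agent.P297.H251
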