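import Vale.Agent.P297.H279.Chart

/-!
The direction of a chord of the surface is not algebraic over the field of the parameter of the
pencil.
-/

set_option linter.unusedSectionVars false

namespace Vale.Agent.P297.H251

open Vale.Agent.P297 Vale.Agent.P297.H288 Vale.Agent.P297.H279

section coeffs

variable {k N : Type*} [Field k] [Field N] [Algebra k N] (F : IntermediateField k N)

/-- The powers of an element outside of a closed field are linearly independent. -/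
theorem coeffs6 (hF : ∀ u : N, IsAlgebraic F u → u ∈ F) {c : N} (hc : c ∉ F)
    {a0 a1 a2 a3 a4 a5 : N} (h0 : a0 ∈ F) (h1 : a1 ∈ F) (h2 : a2 ∈ F) (h3 : a3 ∈ F) (h4 : a4 ∈ F)
    (h5 : a5 ∈ F)
    (h : a0 + a1 * c + a2 * c ^ 2 + a3 * c ^ 3 + a4 * c ^ 4 + a5 * c ^ 5 = 0) :
    a0 = 0 ∧ a1 = 0 ∧ a2 = 0 ∧ a3 = 0 ∧ a4 = 0 ∧ a5 = 0 := by
  set p : Polynomial F := Polynomial.C ⟨a0, h0⟩ + Polynomial.C ⟨a1, h1⟩ * Polynomial.X +
    Polynomial.C ⟨a2, h2⟩ * Polynomial.X ^ 2 + Polynomial.C ⟨a3, h3⟩ * Polynomial.X ^ 3 +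
    Polynomial.C ⟨a4, h4⟩ * Polynomial.X ^ 4 + Polynomial.C ⟨a5, h5⟩ * Polynomial.X ^ 5 with hp
  have hz : p = 0 := by
    by_contra hne
    exact hc (hF c ⟨p, hne, by
      rw [hp]
      simp only [map_add, map_mul, map_pow, Polynomial.aeval_C, Polynomial.aeval_X]
      exact h⟩)
  have hcf : ∀ n, p.coeff n = 0 := fun n => by rw [hz, Polynomial.coeff_zero]
  have e : ∀ n, p.coeff n = (if n = 0 then ⟨a0, h0⟩ else 0) + (if n = 1 then ⟨a1, h1⟩ else 0) +
      (if n = 2 then ⟨a2, h2⟩ else 0) + (if n = 3 then ⟨a3, h3⟩ else 0) +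
      (if n = 4 then ⟨a4, h4⟩ else 0) + (if n = 5 then (⟨a5, h5⟩ : F) else 0) := by
    intro n
    rw [hp]
    simp only [Polynomial.coeff_add, Polynomial.coeff_C_mul, Polynomial.coeff_X_pow,
      Polynomial.coeff_C, Polynomial.coeff_X, mul_ite, mul_one, mul_zero, eq_comm (a := n)]
  have g0 := hcf 0
  have g1 := hcf 1
  have g2 := hcf 2
  have g3 := hcf 3
  have g4 := hcf 4
  have g5 := hcf 5
  rw [e] at g0 g1 g2 g3 g4 g5
  norm_num at g0 g1 g2 g3 g4 g5
  exact ⟨congrArg Subtype.val g0, congrArg Subtype.val g1, congrArg Subtype.val g2,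
    congrArg Subtype.val g3, congrArg Subtype.val g4, congrArg Subtype.val g5⟩

end coeffs

section core

variable {N : Type*} [Field N] [CharZero N]

/-- The coefficients of the chords with a constant direction. -/
theorem final_alg {q u0 u1 w0 w1 m3 m4 μ δ : N} (hT : 1 + q + q ^ 2 ≠ 0)
    (hμ : μ = m3 + m4 + 3 * δ) (A0 : (1 + q + q ^ 2) * (u0 + w0) = q)
    (A1 : (1 + q + q ^ 2) * (u1 + w1) = -(1 + q))
    (E01 : 3 * u0 ^ 2 * u1 - m4 * u1 + 3 * w0 ^ 2 * w1 = 0)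
    (E02 : 3 * u0 * u1 ^ 2 + 3 * w0 * w1 ^ 2 - m3 * w0 = 0)
    (E10 : (1 + q) * (3 * u0 ^ 2 - m4) - 3 * q * w0 ^ 2 + 3 * u0 * w0 + 3 * w0 = 0)
    (E11 : 6 * (1 + q) * u0 * u1 - 6 * q * w0 * w1 + 3 * (u0 * w1 + u1 * w0) + 3 * u0 + 3 * w1 +
      μ = 0)
    (E12 : 3 * (1 + q) * u1 ^ 2 - 3 * q * w1 ^ 2 + 3 * u1 * w1 + 3 * u1 + q * m3 = 0)
    (h1 : δ ≠ 0) (h3 : m3 ≠ 0) (h4 : m4 ≠ 0) (h5 : m3 + μ - 3 ≠ 0) : False := by
  by_cases hq : q = -1
  · subst hq
    have a0 : u0 = -1 - w0 := by linear_combination A0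
    have a1 : u1 = -w1 := by linear_combination A1
    subst a0 a1
    have b0 : 3 * w0 = μ - 3 := by linear_combination -E11
    have b1 : 3 * w1 = -m3 := by linear_combination -E12
    have : m3 * (m3 + μ - 3) = 0 := by
      linear_combination (-3) * E02 + (-3 * w1 + m3) * b1 - m3 * b0
    rcases mul_eq_zero.1 this with h | h
    · exact h3 h
    · exact h5 h
  have hq' : 1 + q ≠ 0 := fun h => hq (by linear_combination h)
  have h30 : (3 : N) ≠ 0 := by norm_num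
  by_cases hw : w0 = 0
  · subst hw
    have m4' : 3 * u0 ^ 2 - m4 = 0 := by
      have : (1 + q) * (3 * u0 ^ 2 - m4) = 0 := by linear_combination E10
      exact (mul_eq_zero.1 this).resolve_left hq'
    have hu0 : u0 ≠ 0 := by
      rintro rfl
      apply h4
      linear_combination -m4'
    have hu1 : u1 = 0 := by
      have : 3 * u0 * u1 ^ 2 = 0 := by linear_combination E02
      rcases mul_eq_zero.1 this with h | h
      · exact absurd h (mul_ne_zero h30 hu0)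
      · exact pow_eq_zero_iff (two_ne_zero) |>.1 h
    subst hu1
    have hq0 : q ≠ 0 := by
      rintro rfl
      apply hu0
      linear_combination A0
    have m3' : 3 * w1 ^ 2 - m3 = 0 := by
      have : q * (3 * w1 ^ 2 - m3) = 0 := by linear_combination -E12
      exact (mul_eq_zero.1 this).resolve_left hq0
    have : (1 + q + q ^ 2) ^ 2 * δ = 0 := by
      have e3 : 3 * δ = -3 * u0 * w1 - 3 * u0 - 3 * w1 - 3 * w1 ^ 2 - 3 * u0 ^ 2 := by
        linear_combination E11 - hμ + m3' + m4'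
      have e4 : 3 * ((1 + q + q ^ 2) ^ 2 * δ) = 0 := by
        linear_combination (1 + q + q ^ 2) ^ 2 * e3 +
          (-3 * (1 + q + q ^ 2) * w1 - 3 * (1 + q + q ^ 2) - 3 * ((1 + q + q ^ 2) * u0 + q)) * A0 +
          (-3 * q - 3 * (1 + q + q ^ 2) - 3 * ((1 + q + q ^ 2) * w1 - (1 + q))) * A1
      exact (mul_eq_zero.1 e4).resolve_left h30
    exact h1 ((mul_eq_zero.1 this).resolve_left (pow_ne_zero _ hT))
  · by_cases hu : u1 = 0
    · subst hu
      have : 3 * w0 ^ 2 * w1 = 0 := by linear_combination E01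
      rcases mul_eq_zero.1 this with h | h
      · exact absurd h (mul_ne_zero h30 (pow_ne_zero _ hw))
      · subst h
        apply hq'
        linear_combination A1
    · have I : -(1 + q) * w0 * w1 - q * w0 * u1 + u0 * u1 + u1 = 0 := by
        have : 3 * w0 * (-(1 + q) * w0 * w1 - q * w0 * u1 + u0 * u1 + u1) = 0 := by
          linear_combination u1 * E10 - (1 + q) * E01
        exact (mul_eq_zero.1 this).resolve_left (mul_ne_zero h30 hw)
      have J : u1 = -w0 := by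
        have : (1 + q) ^ 2 * (w0 + u1) = 0 := by
          linear_combination (1 + q + q ^ 2) * I + (1 + q) * w0 * A1 - u1 * A0
        have := (mul_eq_zero.1 this).resolve_left (pow_ne_zero _ hq')
        linear_combination this
      subst J
      have m4' : m4 = 3 * u0 ^ 2 - 3 * w0 * w1 := by
        have : w0 * (m4 - (3 * u0 ^ 2 - 3 * w0 * w1)) = 0 := by linear_combination E01
        have := (mul_eq_zero.1 this).resolve_left hw
        linear_combination this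
      have m3' : m3 = 3 * w1 ^ 2 + 3 * u0 * w0 := by
        have : w0 * (m3 - (3 * w1 ^ 2 + 3 * u0 * w0)) = 0 := by linear_combination -E02
        have := (mul_eq_zero.1 this).resolve_left hw
        linear_combination this
      have e3 : 3 * δ = 6 * (1 + q) * u0 * w0 + 6 * q * w0 * w1 - 3 * u0 * w1 + 3 * w0 ^ 2 -
          3 * u0 - 3 * w1 - 3 * w1 ^ 2 - 3 * u0 * w0 - 3 * u0 ^ 2 + 3 * w0 * w1 := by
        linear_combination E11 - hμ - m3' - m4'
      have a0 : (1 + q + q ^ 2) * u0 = q - (1 + q + q ^ 2) * w0 := by linear_combination A0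
      have a1 : (1 + q + q ^ 2) * w1 = -(1 + q) + (1 + q + q ^ 2) * w0 := by linear_combination A1
      have e4 : 3 * ((1 + q + q ^ 2) ^ 2 * δ) = 0 := by
        have e5 : 3 * ((1 + q + q ^ 2) ^ 2 * δ) =
            6 * (1 + q) * ((1 + q + q ^ 2) * u0) * ((1 + q + q ^ 2) * w0) +
            6 * q * ((1 + q + q ^ 2) * w0) * ((1 + q + q ^ 2) * w1) -
            3 * ((1 + q + q ^ 2) * u0) * ((1 + q + q ^ 2) * w1) + 3 * ((1 + q + q ^ 2) * w0) ^ 2 -
            3 * (1 + q + q ^ 2) * ((1 + q + q ^ 2) * u0) -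
            3 * (1 + q + q ^ 2) * ((1 + q + q ^ 2) * w1) - 3 * ((1 + q + q ^ 2) * w1) ^ 2 -
            3 * ((1 + q + q ^ 2) * u0) * ((1 + q + q ^ 2) * w0) - 3 * ((1 + q + q ^ 2) * u0) ^ 2 +
            3 * ((1 + q + q ^ 2) * w0) * ((1 + q + q ^ 2) * w1) := by
          linear_combination (1 + q + q ^ 2) ^ 2 * e3
        rw [e5, a0, a1]
        ring
      have := (mul_eq_zero.1 e4).resolve_left h30
      exact h1 ((mul_eq_zero.1 this).resolve_left (pow_ne_zero _ hT))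

end core

section dir

variable {k N : Type*} [Field k] [Field N] [CharZero N] [Algebra k N] (F : IntermediateField k N)

/-- The case of an intercept which is linear in `c`. -/
theorem lin_case (hF : ∀ u : N, IsAlgebraic F u → u ∈ F) {c : N} (hc : c ∉ F)
    {q m1 m2 m3 m4 μ δ U W u0 u1 : N} (hq : q ∈ F) (hm1 : m1 ∈ F) (hm2 : m2 ∈ F) (hm3 : m3 ∈ F)
    (hm4 : m4 ∈ F) (hμF : μ ∈ F) (hT : 1 + q + q ^ 2 ≠ 0) (hμ : μ = m3 + m4 + 3 * δ)
    (E2 : (1 + q + q ^ 2) * (U + W) = q - c * (1 + q))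
    (E1 : (1 + q) * (3 * U ^ 2 - m4) - 3 * q * W ^ 2 + 3 * U * W + 3 * c * U + 3 * W + c * μ +
      q * c ^ 2 * m3 = 0)
    (E0 : U ^ 3 - m4 * U - m2 + W ^ 3 - m3 * c ^ 2 * W - c ^ 3 * m1 = 0)
    (h1 : δ ≠ 0) (h3 : m3 ≠ 0) (h4 : m4 ≠ 0) (h5 : m3 + μ - 3 ≠ 0)
    (hu0 : u0 ∈ F) (hu1 : u1 ∈ F) (hU : U = u0 + u1 * c) : False := by
  set w0 : N := q / (1 + q + q ^ 2) - u0 with hw0
  set w1 : N := -(1 + q) / (1 + q + q ^ 2) - u1 with hw1
  have hTF : 1 + q + q ^ 2 ∈ F := add_mem (add_mem F.one_mem hq) (pow_mem hq 2)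
  have h3F : (3 : N) ∈ F := ofNat_mem F 3
  have h6F : (6 : N) ∈ F := ofNat_mem F 6
  have hw0F : w0 ∈ F := sub_mem (div_mem hq hTF) hu0
  have hw1F : w1 ∈ F := sub_mem (div_mem (neg_mem (add_mem F.one_mem hq)) hTF) hu1
  have A0 : (1 + q + q ^ 2) * (u0 + w0) = q := by rw [hw0]; field_simp; ring
  have A1 : (1 + q + q ^ 2) * (u1 + w1) = -(1 + q) := by rw [hw1]; field_simp; ring
  have hW : W = w0 + w1 * c := by
    have : (1 + q + q ^ 2) * (W - (w0 + w1 * c)) = 0 := by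
      linear_combination E2 - A0 - c * A1 - (1 + q + q ^ 2) * hU
    have := (mul_eq_zero.1 this).resolve_left hT
    linear_combination this
  clear_value w0 w1
  subst hU hW
  obtain ⟨e10, e11, e12, -, -, -⟩ := coeffs6 F hF hc
    (a0 := (1 + q) * (3 * u0 ^ 2 - m4) - 3 * q * w0 ^ 2 + 3 * u0 * w0 + 3 * w0)
    (a1 := 6 * (1 + q) * u0 * u1 - 6 * q * w0 * w1 + 3 * (u0 * w1 + u1 * w0) + 3 * u0 + 3 * w1 + μ)
    (a2 := 3 * (1 + q) * u1 ^ 2 - 3 * q * w1 ^ 2 + 3 * u1 * w1 + 3 * u1 + q * m3)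
    (a3 := 0) (a4 := 0) (a5 := 0)
    (by
      refine add_mem (add_mem (sub_mem (mul_mem (add_mem F.one_mem hq) (sub_mem (mul_mem h3F
        (pow_mem hu0 2)) hm4)) (mul_mem (mul_mem h3F hq) (pow_mem hw0F 2))) (mul_mem (mul_mem h3F
        hu0) hw0F)) (mul_mem h3F hw0F))
    (by
      refine add_mem (add_mem (add_mem (add_mem (sub_mem (mul_mem (mul_mem (mul_mem h6F (add_mem
        F.one_mem hq)) hu0) hu1) (mul_mem (mul_mem (mul_mem h6F hq) hw0F) hw1F)) (mul_mem h3F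
        (add_mem (mul_mem hu0 hw1F) (mul_mem hu1 hw0F)))) (mul_mem h3F hu0)) (mul_mem h3F hw1F))
        hμF)
    (by
      refine add_mem (add_mem (add_mem (sub_mem (mul_mem (mul_mem h3F (add_mem F.one_mem hq))
        (pow_mem hu1 2)) (mul_mem (mul_mem h3F hq) (pow_mem hw1F 2))) (mul_mem (mul_mem h3F hu1)
        hw1F)) (mul_mem h3F hu1)) (mul_mem hq hm3))
    F.zero_mem F.zero_mem F.zero_mem (by linear_combination E1)
  obtain ⟨-, e01, e02, -, -, -⟩ := coeffs6 F hF hc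
    (a0 := u0 ^ 3 - m4 * u0 - m2 + w0 ^ 3)
    (a1 := 3 * u0 ^ 2 * u1 - m4 * u1 + 3 * w0 ^ 2 * w1)
    (a2 := 3 * u0 * u1 ^ 2 + 3 * w0 * w1 ^ 2 - m3 * w0)
    (a3 := u1 ^ 3 + w1 ^ 3 - m3 * w1 - m1) (a4 := 0) (a5 := 0)
    (add_mem (sub_mem (sub_mem (pow_mem hu0 3) (mul_mem hm4 hu0)) hm2) (pow_mem hw0F 3))
    (add_mem (sub_mem (mul_mem (mul_mem h3F (pow_mem hu0 2)) hu1) (mul_mem hm4 hu1))
      (mul_mem (mul_mem h3F (pow_mem hw0F 2)) hw1F))
    (sub_mem (add_mem (mul_mem (mul_mem h3F hu0) (pow_mem hu1 2)) (mul_mem (mul_mem h3F hw0F)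
      (pow_mem hw1F 2))) (mul_mem hm3 hw0F))
    (sub_mem (sub_mem (add_mem (pow_mem hu1 3) (pow_mem hw1F 3)) (mul_mem hm3 hw1F)) hm1)
    F.zero_mem F.zero_mem (by linear_combination E0)
  exact final_alg hT hμ A0 A1 e01 e02 e10 e11 e12 h1 h3 h4 h5

theorem core_dir (hF : ∀ u : N, IsAlgebraic F u → u ∈ F) {c : N} (hc : c ∉ F)
    {q m1 m2 m3 m4 μ δ U W : N} (hm1 : m1 ∈ F) (hm2 : m2 ∈ F) (hm3 : m3 ∈ F)
    (hm4 : m4 ∈ F) (hμF : μ ∈ F) (hμ : μ = m3 + m4 + 3 * δ)
    (E2 : (1 + q + q ^ 2) * (U + W) = q - c * (1 + q))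
    (E1 : (1 + q) * (3 * U ^ 2 - m4) - 3 * q * W ^ 2 + 3 * U * W + 3 * c * U + 3 * W + c * μ +
      q * c ^ 2 * m3 = 0)
    (E0 : U ^ 3 - m4 * U - m2 + W ^ 3 - m3 * c ^ 2 * W - c ^ 3 * m1 = 0)
    (h1 : δ ≠ 0) (h3 : m3 ≠ 0) (h4 : m4 ≠ 0) (h5 : m3 + μ - 3 ≠ 0) : q ∉ F := by
  intro hq
  have h3F : (3 : N) ∈ F := ofNat_mem F 3
  have h30 : (3 : N) ≠ 0 := by norm_num
  have hq1 : 1 + q ∈ F := add_mem F.one_mem hq
  have hTF : 1 + q + q ^ 2 ∈ F := add_mem hq1 (pow_mem hq 2)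
  have hT : 1 + q + q ^ 2 ≠ 0 := by
    intro h0
    rw [h0, zero_mul] at E2
    by_cases h : 1 + q = 0
    · rw [h, mul_zero, sub_zero] at E2
      rw [← E2] at h
      norm_num at h
    · apply hc
      have : c = q / (1 + q) := by
        rw [eq_div_iff h]
        linear_combination E2
      rw [this]
      exact div_mem hq hq1
  set Z : N := 3 * (1 + q + q ^ 2) * U with hZ
  have hZF : ∀ z0 z1 : N, z0 ∈ F → z1 ∈ F → Z = z0 + z1 * c → False := by
    intro z0 z1 hz0 hz1 h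
    refine lin_case F hF hc hq hm1 hm2 hm3 hm4 hμF hT hμ E2 E1 E0 h1 h3 h4 h5
      (u0 := z0 / (3 * (1 + q + q ^ 2))) (u1 := z1 / (3 * (1 + q + q ^ 2)))
      (div_mem hz0 (mul_mem h3F hTF)) (div_mem hz1 (mul_mem h3F hTF)) ?_
    have h31 : 3 * (1 + q + q ^ 2) ≠ 0 := mul_ne_zero h30 hT
    field_simp
    linear_combination h
  have hN : Z * ((q ^ 2 - 1) - c * (q * (q + 2))) = 3 * q * (q - c * (1 + q)) ^ 2 -
      3 * (1 + q + q ^ 2) * (q - c * (1 + q)) +
      (1 + q + q ^ 2) ^ 2 * ((1 + q) * m4 - c * μ - q * c ^ 2 * m3) := by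
    rw [hZ]
    linear_combination (1 + q + q ^ 2) ^ 2 * E1 + (-3 * (1 + q + q ^ 2) * U +
      3 * q * ((1 + q + q ^ 2) * (W - U) + (q - c * (1 + q))) - 3 * (1 + q + q ^ 2)) * E2
  have hE : (q - c * (1 + q)) * Z ^ 2 + (-3 * (q - c * (1 + q)) ^ 2 - (1 + q + q ^ 2) ^ 2 * m4 +
      (1 + q + q ^ 2) ^ 2 * m3 * c ^ 2) * Z + (3 * (q - c * (1 + q)) ^ 3 -
      3 * (1 + q + q ^ 2) ^ 3 * m2 - 3 * (1 + q + q ^ 2) ^ 2 * m3 * c ^ 2 * (q - c * (1 + q)) -
      3 * (1 + q + q ^ 2) ^ 3 * c ^ 3 * m1) = 0 := by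
    rw [hZ]
    linear_combination 3 * (1 + q + q ^ 2) ^ 3 * E0 -
      (3 * (((1 + q + q ^ 2) * W) ^ 2 + (1 + q + q ^ 2) * W * ((q - c * (1 + q)) -
      (1 + q + q ^ 2) * U) + ((q - c * (1 + q)) - (1 + q + q ^ 2) * U) ^ 2) -
      3 * (1 + q + q ^ 2) ^ 2 * m3 * c ^ 2) * E2
  clear_value Z
  by_cases hd : q * (q + 2) = 0
  · rcases mul_eq_zero.1 hd with h | h
    · subst h
      refine hZF (-m4) (μ - 3) (neg_mem hm4) (sub_mem hμF h3F) ?_
      linear_combination -hN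
    · have hq2 : q = -2 := by linear_combination h
      subst hq2
      obtain ⟨z0, hz0, hz0F⟩ : ∃ z, z = -2 - 3 * m4 ∧ z ∈ F :=
        ⟨_, rfl, sub_mem (neg_mem (ofNat_mem F 2)) (mul_mem h3F hm4)⟩
      obtain ⟨z1, hz1, hz1F⟩ : ∃ z, z = 5 - 3 * μ ∧ z ∈ F :=
        ⟨_, rfl, sub_mem (ofNat_mem F 5) (mul_mem h3F hμF)⟩
      obtain ⟨z2, hz2, hz2F⟩ : ∃ z, z = 6 * m3 - 2 ∧ z ∈ F :=
        ⟨_, rfl, sub_mem (mul_mem (ofNat_mem F 6) hm3) (ofNat_mem F 2)⟩
      have hZ2 : Z = z0 + z1 * c + z2 * c ^ 2 := by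
        have h33 : (3 : N) * (Z - (z0 + z1 * c + z2 * c ^ 2)) = 0 := by
          rw [hz0, hz1, hz2]
          linear_combination hN
        have := (mul_eq_zero.1 h33).resolve_left h30
        linear_combination this
      clear hz0 hz1 hz2
      obtain ⟨-, -, -, -, -, h5'⟩ := coeffs6 F hF hc
        (a0 := -2 * z0 ^ 2 + (-12 - 9 * m4) * z0 - 24 - 81 * m2)
        (a1 := z0 ^ 2 - 4 * z0 * z1 + (-12 - 9 * m4) * z1 + 12 * z0 + 36)
        (a2 := 2 * z0 * z1 - 2 * (z1 ^ 2 + 2 * z0 * z2) + (-12 - 9 * m4) * z2 + 12 * z1 +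
          (9 * m3 - 3) * z0 - 18 + 54 * m3)
        (a3 := z1 ^ 2 + 2 * z0 * z2 - 4 * z1 * z2 + 12 * z2 + (9 * m3 - 3) * z1 + 3 -
          27 * m3 - 81 * m1)
        (a4 := 2 * z1 * z2 - 2 * z2 ^ 2 + (9 * m3 - 3) * z2)
        (a5 := z2 ^ 2)
        (by repeat' first | assumption | apply add_mem | apply sub_mem | apply mul_mem |
              apply neg_mem | apply pow_mem | exact ofNat_mem F _)
        (by repeat' first | assumption | apply add_mem | apply sub_mem | apply mul_mem |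
              apply neg_mem | apply pow_mem | exact ofNat_mem F _)
        (by repeat' first | assumption | apply add_mem | apply sub_mem | apply mul_mem |
              apply neg_mem | apply pow_mem | exact ofNat_mem F _)
        (by repeat' first | assumption | apply add_mem | apply sub_mem | apply mul_mem |
              apply neg_mem | apply pow_mem | exact ofNat_mem F _)
        (by repeat' first | assumption | apply add_mem | apply sub_mem | apply mul_mem |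
              apply neg_mem | apply pow_mem | exact ofNat_mem F _)
        (by repeat' first | assumption | apply add_mem | apply sub_mem | apply mul_mem |
              apply neg_mem | apply pow_mem | exact ofNat_mem F _)
        (by
          rw [hZ2] at hE
          linear_combination hE)
      have h6' : z2 = 0 := pow_eq_zero_iff (two_ne_zero) |>.1 h5'
      rw [h6', zero_mul, add_zero] at hZ2
      exact hZF z0 z1 hz0F hz1F hZ2
  · set q' : F := ⟨q, hq⟩ with hq'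
    set a1 : F := ⟨m1, hm1⟩ with ha1
    set a2 : F := ⟨m2, hm2⟩ with ha2
    set a3 : F := ⟨m3, hm3⟩ with ha3
    set a4 : F := ⟨m4, hm4⟩ with ha4
    set mu : F := ⟨μ, hμF⟩ with hmu
    set T : Polynomial F := 1 + Polynomial.C q' + Polynomial.C q' ^ 2 with hTP
    set r : Polynomial F := Polynomial.C q' - Polynomial.X * (1 + Polynomial.C q') with hr
    set Dn : Polynomial F := (Polynomial.C q' ^ 2 - 1) -
      Polynomial.X * (Polynomial.C q' * (Polynomial.C q' + 2)) with hDn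
    set Nm : Polynomial F := 3 * Polynomial.C q' * r ^ 2 - 3 * T * r +
      T ^ 2 * ((1 + Polynomial.C q') * Polynomial.C a4 - Polynomial.X * Polynomial.C mu -
        Polynomial.C q' * Polynomial.X ^ 2 * Polynomial.C a3) with hNm
    set p : Polynomial F := r * Nm ^ 2 + (-3 * r ^ 2 - T ^ 2 * Polynomial.C a4 +
      T ^ 2 * Polynomial.C a3 * Polynomial.X ^ 2) * Nm * Dn + (3 * r ^ 3 -
      3 * T ^ 3 * Polynomial.C a2 - 3 * T ^ 2 * Polynomial.C a3 * Polynomial.X ^ 2 * r -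
      3 * T ^ 3 * Polynomial.X ^ 3 * Polynomial.C a1) * Dn ^ 2 with hp
    have eT : ∀ y : N, Polynomial.aeval y T = 1 + q + q ^ 2 := by
      intro y
      simp only [hTP, map_add, map_one, map_pow, Polynomial.aeval_C]
      rfl
    have er : ∀ y : N, Polynomial.aeval y r = q - y * (1 + q) := by
      intro y
      simp only [hr, map_add, map_sub, map_mul, map_one, Polynomial.aeval_C, Polynomial.aeval_X]
      rfl
    have eD : ∀ y : N, Polynomial.aeval y Dn = (q ^ 2 - 1) - y * (q * (q + 2)) := by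
      intro y
      simp only [hDn, map_add, map_sub, map_mul, map_one, map_pow, map_ofNat, Polynomial.aeval_C,
        Polynomial.aeval_X]
      rfl
    have eN : ∀ y : N, Polynomial.aeval y Nm = 3 * q * (q - y * (1 + q)) ^ 2 -
        3 * (1 + q + q ^ 2) * (q - y * (1 + q)) +
        (1 + q + q ^ 2) ^ 2 * ((1 + q) * m4 - y * μ - q * y ^ 2 * m3) := by
      intro y
      simp only [hNm, map_add, map_sub, map_mul, map_one, map_pow, map_ofNat, Polynomial.aeval_C,
        Polynomial.aeval_X, eT, er]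
      rfl
    have ep : ∀ y : N, Polynomial.aeval y p = Polynomial.aeval y r * Polynomial.aeval y Nm ^ 2 +
        (-3 * Polynomial.aeval y r ^ 2 - (1 + q + q ^ 2) ^ 2 * m4 + (1 + q + q ^ 2) ^ 2 * m3 *
        y ^ 2) * Polynomial.aeval y Nm * Polynomial.aeval y Dn + (3 * Polynomial.aeval y r ^ 3 -
        3 * (1 + q + q ^ 2) ^ 3 * m2 - 3 * (1 + q + q ^ 2) ^ 2 * m3 * y ^ 2 *
        Polynomial.aeval y r - 3 * (1 + q + q ^ 2) ^ 3 * y ^ 3 * m1) *
        Polynomial.aeval y Dn ^ 2 := by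
      intro y
      simp only [hp, map_add, map_sub, map_mul, map_neg, map_pow, map_ofNat,
        Polynomial.aeval_C, Polynomial.aeval_X, eT]
      rfl
    have hpc : Polynomial.aeval c p = 0 := by
      rw [ep, er, eD, eN, ← hN]
      linear_combination ((q ^ 2 - 1) - c * (q * (q + 2))) ^ 2 * hE
    have hp0 : p = 0 := by
      by_contra hne
      exact hc (hF c ⟨p, hne, hpc⟩)
    set y : N := (q ^ 2 - 1) / (q * (q + 2)) with hy
    have hyd : (q ^ 2 - 1) - y * (q * (q + 2)) = 0 := by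
      rw [hy, div_mul_cancel₀ _ hd, sub_self]
    have hpy : Polynomial.aeval y p = 0 := by rw [hp0, map_zero]
    rw [ep, eD, hyd, mul_zero, add_zero, zero_pow two_ne_zero, mul_zero, add_zero] at hpy
    have hry : Polynomial.aeval y r ≠ 0 := by
      rw [er]
      intro h0
      apply hT
      have h1' : (q - y * (1 + q)) * (q * (q + 2)) = 1 + q + q ^ 2 := by
        linear_combination (1 + q) * hyd
      rw [← h1', h0, zero_mul]
    have hNy : Polynomial.aeval y Nm = 0 := by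
      rcases mul_eq_zero.1 hpy with h | h
      · exact absurd h hry
      · exact pow_eq_zero_iff (two_ne_zero) |>.1 h
    rw [eN] at hNy
    have hDc : (q ^ 2 - 1) - c * (q * (q + 2)) ≠ 0 := by
      intro h0
      apply hc
      have : c = (q ^ 2 - 1) / (q * (q + 2)) := by
        rw [eq_div_iff hd]
        linear_combination -h0
      rw [this]
      exact div_mem (sub_mem (pow_mem hq 2) F.one_mem)
        (mul_mem hq (add_mem hq (ofNat_mem F 2)))
    have hdF : q * (q + 2) ∈ F := mul_mem hq (add_mem hq (ofNat_mem F 2))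
    set n1 : N := -6 * q ^ 2 * (1 + q) + 3 * (1 + q + q ^ 2) * (1 + q) -
      (1 + q + q ^ 2) ^ 2 * μ with hn1
    set n2 : N := 3 * q * (1 + q) ^ 2 - (1 + q + q ^ 2) ^ 2 * q * m3 with hn2
    have hn2F : n2 ∈ F := sub_mem (mul_mem (mul_mem h3F hq) (pow_mem hq1 2))
      (mul_mem (mul_mem (pow_mem hTF 2) hq) hm3)
    have hn1F : n1 ∈ F := sub_mem (add_mem (mul_mem (mul_mem (neg_mem (ofNat_mem F 6))
      (pow_mem hq 2)) hq1) (mul_mem (mul_mem h3F hTF) hq1)) (mul_mem (pow_mem hTF 2) hμF)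
    set z1 : N := -n2 / (q * (q + 2)) with hz1
    set z0 : N := -(n1 - (q ^ 2 - 1) * z1) / (q * (q + 2)) with hz0
    have hz1F : z1 ∈ F := div_mem (neg_mem hn2F) hdF
    refine hZF z0 z1 (div_mem (neg_mem (sub_mem hn1F (mul_mem (sub_mem (pow_mem hq 2) F.one_mem)
      hz1F))) hdF) hz1F ?_
    have hz1' : z1 * (q * (q + 2)) = -n2 := by rw [hz1, div_mul_cancel₀ _ hd]
    have hz0' : z0 * (q * (q + 2)) = -(n1 - (q ^ 2 - 1) * z1) := by
      rw [hz0, div_mul_cancel₀ _ hd]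
    have hy' : y * (q * (q + 2)) = q ^ 2 - 1 := by linear_combination -hyd
    clear_value z0 z1 y
    have h0 : z0 * (q ^ 2 - 1) = 3 * q ^ 3 - 3 * (1 + q + q ^ 2) * q +
        (1 + q + q ^ 2) ^ 2 * (1 + q) * m4 := by
      linear_combination -z0 * hy' + y * hz0' - y * z1 * hy' + y ^ 2 * hz1' - hNy - y * hn1 -
        y ^ 2 * hn2
    apply mul_right_cancel₀ hDc
    rw [hN]
    linear_combination -h0 + c * hz0' + c ^ 2 * hz1' + c * hn1 + c ^ 2 * hn2

end dir

section trans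

variable {N : Type*} [Field N] [Algebra ℂ N] (P : Par)

theorem trans_ne2 {δ : N} (hδ : Transcendental ℂ δ) (a0 a1 a2 : ℂ) (h : a2 ≠ 0) :
    algebraMap ℂ N a0 + algebraMap ℂ N a1 * δ + algebraMap ℂ N a2 * δ ^ 2 ≠ 0 := by
  intro h0
  apply hδ
  refine ⟨Polynomial.C a0 + Polynomial.C a1 * Polynomial.X + Polynomial.C a2 * Polynomial.X ^ 2,
    ?_, ?_⟩
  · intro hp
    apply h
    have := congrArg (fun p => Polynomial.coeff p 2) hp
    simpa [Polynomial.coeff_X, Polynomial.coeff_C] using this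
  · simp only [map_add, map_mul, map_pow, Polynomial.aeval_C, Polynomial.aeval_X]
    exact h0

theorem trans_ne4 {δ : N} (hδ : Transcendental ℂ δ) (a0 a1 a2 a3 a4 : ℂ) (h : a4 ≠ 0) :
    algebraMap ℂ N a0 + algebraMap ℂ N a1 * δ + algebraMap ℂ N a2 * δ ^ 2 +
      algebraMap ℂ N a3 * δ ^ 3 + algebraMap ℂ N a4 * δ ^ 4 ≠ 0 := by
  intro h0
  apply hδ
  refine ⟨Polynomial.C a0 + Polynomial.C a1 * Polynomial.X + Polynomial.C a2 * Polynomial.X ^ 2 +
    Polynomial.C a3 * Polynomial.X ^ 3 + Polynomial.C a4 * Polynomial.X ^ 4,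
    ?_, ?_⟩
  · intro hp
    apply h
    have := congrArg (fun p => Polynomial.coeff p 4) hp
    simpa [Polynomial.coeff_X, Polynomial.coeff_C] using this
  · simp only [map_add, map_mul, map_pow, Polynomial.aeval_C, Polynomial.aeval_X]
    exact h0

theorem m3_ne {δ : N} (hδ : Transcendental ℂ δ) : m3 P δ ≠ 0 := by
  have := trans_ne2 hδ (P.t 2) (P.z 2) 3 (by norm_num)
  rwa [map_ofNat] at this

theorem m4_ne {δ : N} (hδ : Transcendental ℂ δ) : m4 P δ ≠ 0 := by
  have := trans_ne2 hδ (P.t 3) (P.z 3) 3 (by norm_num)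
  rwa [map_ofNat] at this

theorem m3mu_ne {δ : N} (hδ : Transcendental ℂ δ) : m3 P δ + mu P δ - 3 ≠ 0 := by
  have := trans_ne2 hδ (2 * P.t 2 + P.t 3 - 3) (2 * P.z 2 + P.z 3 + 3) 9 (by norm_num)
  intro h
  apply this
  simp only [map_add, map_sub, map_mul, map_ofNat]
  unfold mu m3 m4 at h
  linear_combination h

theorem m3sq_ne {δ : N} (hδ : Transcendental ℂ δ) :
    m3 P δ ^ 2 - mu P δ * m3 P δ - 3 * m1 P δ ≠ 0 := by
  have := trans_ne4 hδ (P.t 2 * P.t 3 + 3 * P.t 0)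
    (P.z 2 * P.t 3 + P.t 2 * P.z 3 + 3 * P.z 0)
    (3 * P.t 3 + P.z 2 * P.z 3 + 3 * P.t 2)
    (3 * P.z 3 + 3 * P.z 2 + 3) 9 (by norm_num)
  intro h
  apply this
  simp only [map_add, map_sub, map_mul, map_ofNat]
  unfold mu m3 m4 m1 at h
  linear_combination -h

end trans

end Vale.Agent.P297.H251
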