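import Vale.Agent.P297.H251.Dir
import Vale.Agent.P297.H521.Z3Centre

/-!
The normal form of a chord.
-/

set_option linter.unusedSectionVars false
set_option linter.style.haveILetI false

namespace Vale.Agent.P297.H251

open Vale.Agent.P297 Vale.Agent.P297.Gen Vale.Agent.P297.H288 Vale.Agent.P297.H279

section basic

variable {N : Type} [Field N] [Algebra ℂ N]

theorem cub_zero [CharZero N] {f0 f1 f2 f3 : N}
    (h : ∀ t : N, f0 + f1 * t + f2 * t ^ 2 + f3 * t ^ 3 = 0) : f0 = 0 ∧ f1 = 0 ∧ f2 = 0 ∧ f3 = 0 := by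
  have h0 := h 0
  have h1 := h 1
  have h2 := h (-1)
  have h3 := h 2
  have e0 : f0 = 0 := by linear_combination h0
  have e2 : f2 = 0 := by linear_combination (1 / 2) * (h1 + h2) - h0
  have e3 : f3 = 0 := by
    linear_combination (1 / 6) * (h3 - 2 * h1 - e2 * 2 + e0)
  exact ⟨e0, by linear_combination h1 - e0 - e2 - e3, e2, e3⟩

variable (P : Par) {δ c : N}

theorem mem_of_algMap (F : IntermediateField ℂ N) (z : ℂ) : algebraMap ℂ N z ∈ F :=
  F.algebraMap_mem z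

theorem m3_mem (F : IntermediateField ℂ N) (h : δ ∈ F) : m3 P δ ∈ F := by
  unfold m3
  exact add_mem (add_mem (mem_of_algMap F _) (mul_mem (mem_of_algMap F _) h))
    (mul_mem (ofNat_mem F 3) (pow_mem h 2))

theorem m4_mem (F : IntermediateField ℂ N) (h : δ ∈ F) : m4 P δ ∈ F := by
  unfold m4
  exact add_mem (add_mem (mem_of_algMap F _) (mul_mem (mem_of_algMap F _) h))
    (mul_mem (ofNat_mem F 3) (pow_mem h 2))

theorem m1_mem (F : IntermediateField ℂ N) (h : δ ∈ F) : m1 P δ ∈ F := by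
  unfold m1
  exact sub_mem (sub_mem (add_mem (mem_of_algMap F _) (mul_mem (mem_of_algMap F _) h))
    (mul_mem (add_mem (mem_of_algMap F _) (mul_mem (mem_of_algMap F _) h)) h))
    (mul_mem (ofNat_mem F 2) (pow_mem h 3))

theorem m2_mem (F : IntermediateField ℂ N) (h : δ ∈ F) : m2 P δ ∈ F := by
  unfold m2
  exact sub_mem (sub_mem (add_mem (mem_of_algMap F _) (mul_mem (mem_of_algMap F _) h))
    (mul_mem (add_mem (mem_of_algMap F _) (mul_mem (mem_of_algMap F _) h)) h))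
    (mul_mem (ofNat_mem F 2) (pow_mem h 3))

theorem mu_mem (F : IntermediateField ℂ N) (h : δ ∈ F) : mu P δ ∈ F := by
  unfold mu
  exact add_mem (add_mem (m3_mem P F h) (m4_mem P F h)) (mul_mem (ofNat_mem F 3) h)

theorem m3sq_ne' (hδ : Transcendental ℂ δ) : m3 P δ ^ 2 - 3 * m1 P δ ≠ 0 := by
  have := trans_ne4 hδ (P.t 2 ^ 2 - 3 * P.t 0) (2 * P.t 2 * P.z 2 - 3 * P.z 0 + 3 * P.t 2)
    (P.z 2 ^ 2 + 6 * P.t 2 + 3 * P.z 2) (6 * P.z 2 + 6) 9 (by norm_num)
  intro h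
  apply this
  simp only [map_add, map_sub, map_mul, map_pow, map_ofNat]
  unfold m3 m1 at h
  linear_combination h

/-- A line in the surface on which `a` is constant. -/
theorem const_dir [CharZero N] (F : IntermediateField ℂ N) (hF : ∀ u, IsAlgebraic F u → u ∈ F)
    (hδF : δ ∈ F) (hδ : Transcendental ℂ δ) (hc : c ∉ F) {a0 b0 d0 ρ : N}
    (h : ∀ t : N, FT P δ a0 (b0 + ρ * t) (d0 - c * ρ * t) (c ^ 3) = 0) : ρ = 0 := by
  by_contra hρ
  have hc0 : c ≠ 0 := by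
    rintro rfl
    exact hc F.zero_mem
  obtain ⟨D, hD⟩ : ∃ D, D = d0 + c * b0 := ⟨_, rfl⟩
  have h' : ∀ t : N, FT P δ a0 t (D - c * t) (c ^ 3) = 0 := by
    intro t
    have h1 := h ((t - b0) / ρ)
    have e1 : b0 + ρ * ((t - b0) / ρ) = t := by field_simp; ring
    have e2 : d0 - c * ρ * ((t - b0) / ρ) = D - c * t := by rw [hD]; field_simp; ring
    rwa [e1, e2] at h1
  obtain ⟨f0, f1, f2, -⟩ := cub_zero (N := N)
    (f0 := a0 ^ 3 - c ^ 6 * m1 P δ + c ^ 3 * (D ^ 3 - m4 P δ * D - m2 P δ) -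
      a0 * c ^ 3 * (3 * D + mu P δ))
    (f1 := -(c ^ 6 * m3 P δ) + c ^ 3 * (-(3 * c * D ^ 2) + m4 P δ * c) -
      a0 * c ^ 3 * (3 * D + 3 - 3 * c))
    (f2 := 3 * c ^ 5 * D + 3 * a0 * c ^ 4) (f3 := 0) (by
      intro t
      have h1 := h' t
      unfold FT e2 e0 hh at h1
      linear_combination h1)
  have h30 : (3 : N) ≠ 0 := by norm_num
  have ha : a0 = -(c * D) := by
    have : (3 * c ^ 4) * (c * D + a0) = 0 := by linear_combination f2
    have := (mul_eq_zero.1 this).resolve_left (mul_ne_zero h30 (pow_ne_zero _ hc0))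
    linear_combination this
  subst ha
  have g1 : 3 * D * (1 - c) - (c ^ 2 * m3 P δ - m4 P δ) = 0 := by
    have : c ^ 4 * (3 * D * (1 - c) - (c ^ 2 * m3 P δ - m4 P δ)) = 0 := by linear_combination f1
    exact (mul_eq_zero.1 this).resolve_left (pow_ne_zero _ hc0)
  have g0 : -(c ^ 3 * m1 P δ) - m4 P δ * D - m2 P δ + c * D * (3 * D + mu P δ) = 0 := by
    have : c ^ 3 * (-(c ^ 3 * m1 P δ) - m4 P δ * D - m2 P δ + c * D * (3 * D + mu P δ)) = 0 := by
      linear_combination f0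
    exact (mul_eq_zero.1 this).resolve_left (pow_ne_zero _ hc0)
  have a1 := m1_mem P F hδF
  have a2 := m2_mem P F hδF
  have a3 := m3_mem P F hδF
  have a4 := m4_mem P F hδF
  have am := mu_mem P F hδF
  have n3 : (3 : N) ∈ F := ofNat_mem F 3
  have n6 : (6 : N) ∈ F := ofNat_mem F 6
  obtain ⟨-, -, -, -, -, h5⟩ := coeffs6 F hF hc
    (a0 := m4 P δ ^ 2 - 3 * m2 P δ) (a1 := 6 * m2 P δ - mu P δ * m4 P δ)
    (a2 := -(m3 P δ * m4 P δ) - 3 * m2 P δ + mu P δ * m4 P δ)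
    (a3 := -(3 * m1 P δ) - m3 P δ * m4 P δ + mu P δ * m3 P δ)
    (a4 := 6 * m1 P δ - mu P δ * m3 P δ)
    (a5 := m3 P δ ^ 2 - 3 * m1 P δ)
    (sub_mem (pow_mem a4 2) (mul_mem n3 a2)) (sub_mem (mul_mem n6 a2) (mul_mem am a4))
    (add_mem (sub_mem (neg_mem (mul_mem a3 a4)) (mul_mem n3 a2)) (mul_mem am a4))
    (add_mem (sub_mem (neg_mem (mul_mem n3 a1)) (mul_mem a3 a4)) (mul_mem am a3))
    (sub_mem (mul_mem n6 a1) (mul_mem am a3))
    (sub_mem (pow_mem a3 2) (mul_mem n3 a1))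
    (by
      linear_combination 3 * (1 - c) ^ 2 * g0 - (-(m4 P δ * (1 - c)) +
        c * ((c ^ 2 * m3 P δ - m4 P δ) + 3 * D * (1 - c)) + c * mu P δ * (1 - c)) * g1)
  exact m3sq_ne' P hδ h5

/-- The coefficients of a line in the surface on which `a` is not constant. -/
theorem line_E [CharZero N] (hc0 : c ≠ 0) {q U w : N}
    (h : ∀ p : N, FT P δ (-(c ^ 3 * p)) (w - c * q * p) (U + c ^ 2 * (1 + q) * p) (c ^ 3) = 0) :
    (1 + q + q ^ 2) * (U + c * w) = q - c * (1 + q) ∧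
    (1 + q) * (3 * U ^ 2 - m4 P δ) - 3 * q * (c * w) ^ 2 + 3 * U * (c * w) + 3 * c * U +
      3 * (c * w) + c * mu P δ + q * c ^ 2 * m3 P δ = 0 ∧
    U ^ 3 - m4 P δ * U - m2 P δ + (c * w) ^ 3 - m3 P δ * c ^ 2 * (c * w) - c ^ 3 * m1 P δ = 0 := by
  have h30 : (3 : N) ≠ 0 := by norm_num
  obtain ⟨f0, f1, f2, -⟩ := cub_zero (N := N)
    (f0 := c ^ 3 * (U ^ 3 - m4 P δ * U - m2 P δ + (c * w) ^ 3 - m3 P δ * c ^ 2 * (c * w) -
      c ^ 3 * m1 P δ))
    (f1 := c ^ 5 * ((1 + q) * (3 * U ^ 2 - m4 P δ) - 3 * q * (c * w) ^ 2 + 3 * U * (c * w) +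
      3 * c * U + 3 * (c * w) + c * mu P δ + q * c ^ 2 * m3 P δ))
    (f2 := 3 * c ^ 7 * ((1 + q + q ^ 2) * (U + c * w) - (q - c * (1 + q))))
    (f3 := -(c ^ 9) - c ^ 9 * q ^ 3 + c ^ 9 * (1 + q) ^ 3 - 3 * c ^ 9 * q * (1 + q)) (by
      intro t
      have h1 := h t
      unfold FT e2 e0 hh at h1
      linear_combination h1)
  refine ⟨?_, (mul_eq_zero.1 f1).resolve_left (pow_ne_zero _ hc0),
    (mul_eq_zero.1 f0).resolve_left (pow_ne_zero _ hc0)⟩
  have := (mul_eq_zero.1 f2).resolve_left (mul_ne_zero h30 (pow_ne_zero _ hc0))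
  linear_combination this

end basic

section normal

variable {N : Type} [Field N] [Algebra ℂ N] [IsAlgClosed N] (P : Par) {δ c : N}

/-- **The normal form of a chord.** -/
theorem chord_normal (hδ : Transcendental ℂ δ) (hc : c ∉ cl0 ({δ} : Set N))
    {a0 b0 d0 π ρ α : N} (hdir : ρ ≠ 0 ∨ α ≠ 0) (hπ : π = -(c * (α + c * ρ)))
    (h : ∀ t : N, FT P δ (a0 + π * t) (b0 + ρ * t) (d0 + α * t) (c ^ 3) = 0) :
    ρ ≠ 0 ∧ ∃ q r0 D : N, q ∉ cl0 ({δ} : Set N) ∧ α = c * q * ρ ∧ π = -(c ^ 2 * (1 + q)) * ρ ∧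
      a0 = -(c ^ 2 * (1 + q)) * (b0 - r0) ∧ d0 = D + c * q * b0 ∧
      ∀ t : N, FT P δ (-(c ^ 2 * (1 + q)) * (t - r0)) t (D + c * q * t) (c ^ 3) = 0 := by
  haveI : CharZero N := charZero_of_injective_algebraMap (algebraMap ℂ N).injective
  set F := cl0 ({δ} : Set N) with hFdef
  have hF : ∀ u, IsAlgebraic F u → u ∈ F := cl0_closed ({δ} : Set N)
  have hδF : δ ∈ F := subset_cl0 _ rfl
  have hc0 : c ≠ 0 := by
    rintro rfl
    exact hc F.zero_mem
  have hs : α + c * ρ ≠ 0 := by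
    intro hs
    have hα : α = -(c * ρ) := by linear_combination hs
    have hρ : ρ = 0 := by
      refine const_dir P F hF hδF hδ hc (a0 := a0) (b0 := b0) (d0 := d0) fun t => ?_
      have h1 := h t
      rw [hπ, hs, hα] at h1
      rw [mul_zero, neg_zero, zero_mul, add_zero] at h1
      have e : d0 + -(c * ρ) * t = d0 - c * ρ * t := by ring
      rwa [e] at h1
    rcases hdir with h1 | h1
    · exact h1 hρ
    · apply h1
      rw [hα, hρ, mul_zero, neg_zero]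
  obtain ⟨s, hsd⟩ : ∃ s, s = α + c * ρ := ⟨_, rfl⟩
  rw [← hsd] at hs hπ
  have hπ0 : π ≠ 0 := by
    rw [hπ]
    exact neg_ne_zero.2 (mul_ne_zero hc0 hs)
  have hα : α = s - c * ρ := by rw [hsd]; ring
  obtain ⟨q', hq'⟩ : ∃ q', q' = -(c * ρ) / s := ⟨_, rfl⟩
  have hq's : q' * s = -(c * ρ) := by rw [hq', div_mul_cancel₀ _ hs]
  obtain ⟨E2, E1, E0⟩ := line_E P hc0 (δ := δ) (q := q') (U := d0 - α * a0 / π)
    (w := b0 - ρ * a0 / π) (by
      intro p
      have h1 := h (-(c ^ 3 * p + a0) / π)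
      have e1 : a0 + π * (-(c ^ 3 * p + a0) / π) = -(c ^ 3 * p) := by field_simp; ring
      have e2 : b0 + ρ * (-(c ^ 3 * p + a0) / π) = b0 - ρ * a0 / π - c * q' * p := by
        rw [hq', hπ]
        field_simp
        ring
      have e3 : d0 + α * (-(c ^ 3 * p + a0) / π) = d0 - α * a0 / π + c ^ 2 * (1 + q') * p := by
        rw [hq', hπ, hα]
        field_simp
        ring
      rwa [e1, e2, e3] at h1)
  have hδ0 : δ ≠ 0 := by
    rintro rfl
    exact hδ isAlgebraic_zero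
  have hq'F : q' ∉ F := core_dir F hF hc (m1_mem P F hδF) (m2_mem P F hδF) (m3_mem P F hδF)
    (m4_mem P F hδF) (mu_mem P F hδF) rfl E2 E1 E0 hδ0 (m3_ne P hδ) (m4_ne P hδ) (m3mu_ne P hδ)
  have hρ : ρ ≠ 0 := by
    rintro rfl
    apply hq'F
    rw [hq', mul_zero, neg_zero, zero_div]
    exact F.zero_mem
  refine ⟨hρ, α / (c * ρ), b0 - ρ * a0 / π, d0 - α / ρ * b0, ?_, ?_, ?_, ?_, ?_, ?_⟩
  · intro hqF
    apply hq'F
    have e1 : q' = -1 / (1 + α / (c * ρ)) := by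
      have h1 : c * ρ ≠ 0 := mul_ne_zero hc0 hρ
      have e2 : 1 + α / (c * ρ) = s / (c * ρ) := by
        rw [hα]
        field_simp
        ring
      rw [e2, hq']
      field_simp
    rw [e1]
    exact div_mem (neg_mem F.one_mem) (add_mem F.one_mem hqF)
  · field_simp
  · rw [hπ, hsd]
    field_simp
    ring
  · have e1 : -(c ^ 2 * (1 + α / (c * ρ))) = π / ρ := by
      rw [hπ, hsd]
      field_simp
      ring
    rw [e1]
    field_simp
    ring
  · field_simp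
    ring
  · intro t
    have h1 := h ((t - b0) / ρ)
    have e0 : -(c ^ 2 * (1 + α / (c * ρ))) = π / ρ := by
      rw [hπ, hsd]
      field_simp
      ring
    have e1 : a0 + π * ((t - b0) / ρ) =
        -(c ^ 2 * (1 + α / (c * ρ))) * (t - (b0 - ρ * a0 / π)) := by
      rw [e0]
      field_simp
      ring
    have e2 : b0 + ρ * ((t - b0) / ρ) = t := by field_simp; ring
    have e3 : d0 + α * ((t - b0) / ρ) = d0 - α / ρ * b0 + c * (α / (c * ρ)) * t := by
      field_simp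
      ring
    rwa [e1, e2, e3] at h1

end normal

end Vale.Agent.P297.H251
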